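import Vale.Agent.P011.Arith.Quad
import Vale.Agent.P011.Arith.LocalB
import Vale.Agent.P011.Arith.SUnit
import Vale.Agent.P011.Even.Completion

/-!
Elements of the ground field which are not squares in the completions of a cubic extension.
-/

open NumberField IsDedekindDomain Module

namespace Vale.Agent.P011Z.Cl.Br2x

open Vale.Agent.P011.Arith Vale.Agent.P011.Even

variable {k E : Type} [Field k] [NumberField k] [Field E] [NumberField E] [Algebra k E]

/-- Decomposition in a cubic extension: all ramification indices are odd, or all residue degrees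
are one. -/
theorem odd_or_one (h3 : finrank k E = 3) (v : HeightOneSpectrum (𝓞 k)) :
    (∀ w : HeightOneSpectrum (𝓞 E), w.asIdeal.comap (algebraMap (𝓞 k) (𝓞 E)) = v.asIdeal →
      Odd (v.asIdeal.ramificationIdx' w.asIdeal)) ∨
    ∀ w : HeightOneSpectrum (𝓞 E), w.asIdeal.comap (algebraMap (𝓞 k) (𝓞 E)) = v.asIdeal →
      v.asIdeal.inertiaDeg' w.asIdeal = 1 := by
  classical
  by_contra hcon
  push Not at hcon
  obtain ⟨⟨w1, hw1, he⟩, w2, hw2, hf⟩ := hcon
  have hv := v.isMaximal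
  have l1 : w1.asIdeal.LiesOver v.asIdeal := ⟨hw1.symm⟩
  have l2 : w2.asIdeal.LiesOver v.asIdeal := ⟨hw2.symm⟩
  have hsum := Ideal.sum_ramification_inertia (𝓞 E) k E v.ne_bot
  rw [h3] at hsum
  have m1 : w1.asIdeal ∈ IsDedekindDomain.primesOverFinset v.asIdeal (𝓞 E) :=
    (IsDedekindDomain.mem_primesOverFinset_iff v.ne_bot _).mpr ⟨w1.isPrime, l1⟩
  have m2 : w2.asIdeal ∈ IsDedekindDomain.primesOverFinset v.asIdeal (𝓞 E) :=
    (IsDedekindDomain.mem_primesOverFinset_iff v.ne_bot _).mpr ⟨w2.isPrime, l2⟩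
  have e1 : v.asIdeal.ramificationIdx' w1.asIdeal ≠ 0 :=
    Ideal.IsDedekindDomain.ramificationIdx'_ne_zero_of_liesOver w1.asIdeal v.ne_bot
  have e2 : v.asIdeal.ramificationIdx' w2.asIdeal ≠ 0 :=
    Ideal.IsDedekindDomain.ramificationIdx'_ne_zero_of_liesOver w2.asIdeal v.ne_bot
  have f1 : v.asIdeal.inertiaDeg' w1.asIdeal ≠ 0 := Ideal.inertiaDeg'_ne_zero _ _
  have f2 : v.asIdeal.inertiaDeg' w2.asIdeal ≠ 0 := Ideal.inertiaDeg'_ne_zero _ _
  have e3 : 2 ≤ v.asIdeal.ramificationIdx' w1.asIdeal := by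
    rw [Nat.not_odd_iff_even] at he
    obtain ⟨r, hr⟩ := he
    omega
  have f3 : 2 ≤ v.asIdeal.inertiaDeg' w2.asIdeal := by omega
  by_cases h12 : w1.asIdeal = w2.asIdeal
  · have h1 := Finset.single_le_sum (f := fun P : Ideal (𝓞 E) =>
      v.asIdeal.ramificationIdx' P * v.asIdeal.inertiaDeg' P) (fun _ _ => Nat.zero_le _) m1
    rw [hsum] at h1
    rw [← h12] at f3
    have h2 := Nat.mul_le_mul e3 f3
    omega
  · have h1 := Finset.add_le_sum (f := fun P : Ideal (𝓞 E) =>
      v.asIdeal.ramificationIdx' P * v.asIdeal.inertiaDeg' P) (fun _ _ => Nat.zero_le _) m1 m2 h12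
    rw [hsum] at h1
    have h2 := Nat.mul_le_mul e3 (Nat.one_le_iff_ne_zero.mpr f1)
    have h4 := Nat.mul_le_mul (Nat.one_le_iff_ne_zero.mpr e2) f3
    omega

/-- Residue degree one. -/
theorem residue_onto {v : HeightOneSpectrum (𝓞 k)} {w : HeightOneSpectrum (𝓞 E)}
    (hw : w.asIdeal.comap (algebraMap (𝓞 k) (𝓞 E)) = v.asIdeal)
    (hf : v.asIdeal.inertiaDeg' w.asIdeal = 1) {y : E} (hy : w.valuation E y ≤ 1) :
    ∃ x : k, w.valuation E (algebraMap k E x - y) < 1 := by
  have hv := v.isMaximal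
  have hw' := w.isMaximal
  have l1 : w.asIdeal.LiesOver v.asIdeal := ⟨hw.symm⟩
  rw [Ideal.inertiaDeg'_algebraMap] at hf
  let _ : Field (𝓞 k ⧸ v.asIdeal) := Ideal.Quotient.field _
  let _ : Field (𝓞 E ⧸ w.asIdeal) := Ideal.Quotient.field _
  have hb := (Algebra.finrank_eq_one_iff_bijective_algebraMap.mp hf).2
  obtain ⟨a, ha⟩ := exists_residue w hy
  obtain ⟨b, hb'⟩ := hb (Ideal.Quotient.mk _ a)
  obtain ⟨b, rfl⟩ := Ideal.Quotient.mk_surjective b
  have h1 : Ideal.Quotient.mk w.asIdeal (algebraMap (𝓞 k) (𝓞 E) b - a) = 0 := by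
    rw [map_sub, ← hb', sub_eq_zero]
    rfl
  rw [mk_eq_zero_iff, map_sub] at h1
  refine ⟨algebraMap (𝓞 k) k b, ?_⟩
  have h2 : algebraMap k E (algebraMap (𝓞 k) k b) =
      algebraMap (𝓞 E) E (algebraMap (𝓞 k) (𝓞 E) b) := by
    rw [← IsScalarTower.algebraMap_apply, ← IsScalarTower.algebraMap_apply]
  have h3 : algebraMap k E (algebraMap (𝓞 k) k b) - y =
      (algebraMap (𝓞 E) E (algebraMap (𝓞 k) (𝓞 E) b) - algebraMap (𝓞 E) E a) +
        (algebraMap (𝓞 E) E a - y) := by
    rw [h2]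
    ring
  rw [h3]
  exact (w.valuation E).map_add_lt h1 ha

/-- An element of odd valuation is not a square. -/
theorem not_sq_of_odd {R : Type} [Field R] (V : Valuation R Z0) {x : R} {n : ℕ} (hn : Odd n)
    (hx : V x = WithZero.exp (-1 : ℤ) ^ n) : ¬ IsSquare x := by
  rintro ⟨r, hr⟩
  rw [hr, map_mul, ← WithZero.exp_nsmul] at hx
  have h2 : V r ≠ 0 := by
    intro h
    rw [h, mul_zero] at hx
    exact WithZero.exp_ne_zero hx.symm
  obtain ⟨z, hz⟩ : ∃ z : ℤ, V r = WithZero.exp z := ⟨WithZero.log (V r), (WithZero.exp_log h2).symm⟩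
  rw [hz, ← WithZero.exp_add] at hx
  have h3 : z + z = n • (-1 : ℤ) := WithZero.exp_injective hx
  obtain ⟨m, rfl⟩ := hn
  rw [nsmul_eq_mul] at h3
  push_cast at h3
  omega

/-- The unramified class stays nontrivial if the residue degree is one. -/
theorem not_sq_of_one {v : HeightOneSpectrum (𝓞 k)} {w : HeightOneSpectrum (𝓞 E)}
    (hw : w.asIdeal.comap (algebraMap (𝓞 k) (𝓞 E)) = v.asIdeal)
    (hf : v.asIdeal.inertiaDeg' w.asIdeal = 1) {a : k} (ha : AdmC (v.valuation k) a) :
    ¬ IsSquare (algebraMap E (w.adicCompletion E) (algebraMap k E (1 + 4 * a))) := by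
  rintro ⟨y, hy⟩
  have hcz : CharZero (w.adicCompletion E) :=
    charZero_of_injective_algebraMap (algebraMap E (w.adicCompletion E)).injective
  set ι := algebraMap E (w.adicCompletion E) with hι
  let V : Valuation (w.adicCompletion E) Z0 := Valued.v
  have hV : ∀ x : E, V (ι x) = w.valuation E x := valued_alg w
  set A := ι (algebraMap k E a) with hA
  have hA1 : V A ≤ 1 := by
    rw [hA, hV, val_le_one_iff hw]
    exact ha.1
  rw [map_add, map_mul, map_add, map_mul, map_one, map_one, map_ofNat, map_ofNat, ← hA] at hy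
  obtain ⟨p, hp⟩ : ∃ p : w.adicCompletion E, p * (p + 1) = A :=
    ⟨(y - 1) / 2, by
      have h4 : A = (y * y - 1) / 4 := by
        rw [← hy]
        ring
      rw [h4]
      ring⟩
  have hp1 : V p ≤ 1 := by
    by_contra hlt
    rw [not_le] at hlt
    have h1 : V (p + 1) = V p := V.map_add_eq_of_lt_left (by rwa [map_one])
    rw [← hp, map_mul, h1] at hA1
    exact absurd hA1 (not_le.mpr (one_lt_mul'' hlt hlt))
  obtain ⟨p1, hp1'⟩ := dense_val w p 1 one_ne_zero
  change V (p - ι p1) < 1 at hp1'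
  have h2 : w.valuation E p1 ≤ 1 := by
    rw [← hV]
    have e : ι p1 = p - (p - ι p1) := by ring
    rw [e]
    exact V.map_sub_le hp1 hp1'.le
  obtain ⟨x, hx⟩ := residue_onto hw hf h2
  rw [← hV, map_sub] at hx
  set X := ι (algebraMap k E x) with hX
  have h3 : V (X - p) < 1 := by
    have e : X - p = (X - ι p1) - (p - ι p1) := by ring
    rw [e]
    exact V.map_sub_lt hx hp1'
  have h4 : V (X + p + 1) ≤ 1 := by
    have e : X + p + 1 = (X - p) + p + p + 1 := by ring
    rw [e]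
    exact V.map_add_le (V.map_add_le (V.map_add_le h3.le hp1) hp1) (by rw [map_one])
  have h5 : V (ι (algebraMap k E (x ^ 2 + x * 1 - a * 1 ^ 2))) < 1 := by
    have e : ι (algebraMap k E (x ^ 2 + x * 1 - a * 1 ^ 2)) = (X - p) * (X + p + 1) := by
      rw [mul_one, one_pow, mul_one, map_sub, map_add, map_pow, map_sub, map_add, map_pow, ← hX,
        ← hA, ← hp]
      ring
    rw [e, map_mul]
    calc V (X - p) * V (X + p + 1) ≤ V (X - p) * 1 := mul_le_mul_right h4 _
      _ < 1 := by rwa [mul_one]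
  rw [hV, val_lt_one_iff hw, ha.2, map_one] at h5
  exact absurd h5 (not_lt.mpr (one_le_pow_of_one_le' (le_max_right _ _) 2))

/-- At every place there is an element which is a square in no completion of the cubic
extension. -/
theorem exists_nonsq (h3 : finrank k E = 3) (v : HeightOneSpectrum (𝓞 k)) :
    ∃ ε : kˣ, ∀ w : HeightOneSpectrum (𝓞 E),
      w.asIdeal.comap (algebraMap (𝓞 k) (𝓞 E)) = v.asIdeal →
      ¬ IsSquare (algebraMap E (w.adicCompletion E) (algebraMap k E ε)) := by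
  rcases odd_or_one h3 v with h | h
  · obtain ⟨π, hπ⟩ := v.valuation_exists_uniformizer k
    have hπ0 : π ≠ 0 := by
      rintro rfl
      rw [map_zero] at hπ
      exact WithZero.exp_ne_zero hπ.symm
    refine ⟨Units.mk0 π hπ0, fun w hw => ?_⟩
    have l1 : w.asIdeal.LiesOver v.asIdeal := ⟨hw.symm⟩
    refine not_sq_of_odd (Valued.v : Valuation (w.adicCompletion E) Z0) (h w hw) ?_
    rw [valued_alg, ← HeightOneSpectrum.valuation_liesOver E v w, Units.val_mk0, hπ]
  · obtain ⟨a, ha⟩ := exists_admC v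
    obtain ⟨w0, hw0⟩ := exists_above (E := E) v
    have h0 : (1 + 4 * a : k) ≠ 0 := by
      intro h1
      apply not_sq_of_one hw0 (h w0 hw0) ha
      rw [h1, map_zero, map_zero]
      exact ⟨0, (mul_zero _).symm⟩
    exact ⟨Units.mk0 _ h0, fun w hw => not_sq_of_one hw (h w hw) ha⟩

/-- An element with prescribed signs which is not a square in finitely many completions of the
cubic extension. -/
theorem exists_c (h3 : finrank k E = 3) {S : Set (HeightOneSpectrum (𝓞 E))} (hS : S.Finite)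
    (x : k) : ∃ c : k, c ≠ 0 ∧ (∀ φ : k →+* ℝ, φ c < 0 ↔ φ x < 0) ∧
      ∀ w ∈ S, ¬ IsSquare (algebraMap E (w.adicCompletion E) (algebraMap k E c)) := by
  classical
  choose ε hε using exists_nonsq h3
  choose b hb using exists_below (F := k) (E := E)
  obtain ⟨f, hf1, hf2⟩ := weak_approx (hS.toFinset.image b) ε
    (fun φ => if φ x < 0 then -1 else 1)
  refine ⟨f, f.ne_zero, fun φ => ?_, fun w hw hsq => ?_⟩
  · have h1 := hf2 φ
    by_cases h : φ x < 0
    · rw [if_pos h] at h1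
      push_cast at h1
      exact ⟨fun _ => h, fun _ => by linarith⟩
    · rw [if_neg h] at h1
      push_cast at h1
      exact ⟨fun h2 => by linarith, fun h2 => absurd h2 h⟩
  · have h1 := hf1 (b w) (Finset.mem_image_of_mem b (hS.mem_toFinset.mpr hw))
    have h2 := (isSquare_iff w _).mpr (LS_map (hb w) ((LS _).inv_mem h1))
    apply hε (b w) w (hb w)
    have h4 := hsq.mul h2
    rw [← map_mul] at h4
    have e : algebraMap k E (f : k) *
        ((Units.map (algebraMap k E : k →* E) (f / ε (b w))⁻¹ : Eˣ) : E) =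
        algebraMap k E (ε (b w) : k) := by
      rw [Units.coe_map, MonoidHom.coe_coe, ← map_mul, ← Units.val_mul, inv_div,
        mul_div_cancel]
    rwa [e] at h4

/-- Natural numbers close to one are squares in finitely many completions. -/
theorem exists_mod {S : Set (HeightOneSpectrum (𝓞 E))} (hS : S.Finite) :
    ∃ m : ℕ, m ≠ 0 ∧ ∀ n : ℕ, n ≡ 1 [MOD m] → ∀ w ∈ S,
      IsSquare (algebraMap E (w.adicCompletion E) (n : E)) := by
  classical
  have hN : ∀ w : HeightOneSpectrum (𝓞 E), Ideal.absNorm w.asIdeal ≠ 0 := fun w =>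
    Ideal.absNorm_eq_zero_iff.not.mpr w.ne_bot
  refine ⟨4 * ∏ w ∈ hS.toFinset, Ideal.absNorm w.asIdeal,
    mul_ne_zero (by norm_num) (Finset.prod_ne_zero_iff.mpr fun w _ => hN w), fun n hn w hw => ?_⟩
  have h1 : ((4 * Ideal.absNorm w.asIdeal : ℕ) : ℤ) ∣ (n : ℤ) - 1 := by
    have h2 : 4 * Ideal.absNorm w.asIdeal ∣ 4 * ∏ w ∈ hS.toFinset, Ideal.absNorm w.asIdeal :=
      Nat.mul_dvd_mul_left 4 (Finset.dvd_prod_of_mem _ (hS.mem_toFinset.mpr hw))
    have h3 := (hn.of_dvd h2).symm.dvd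
    rwa [Nat.cast_one] at h3
  obtain ⟨t, ht⟩ := h1
  apply isSquare_of_close w
  have e1 : algebraMap E (w.adicCompletion E) (n : E) - 1 =
      algebraMap E (w.adicCompletion E) (4 * algebraMap (𝓞 E) E
        ((Ideal.absNorm w.asIdeal : 𝓞 E) * t)) := by
    have h4 : (n : E) - 1 = 4 * algebraMap (𝓞 E) E ((Ideal.absNorm w.asIdeal : 𝓞 E) * t) := by
      have h5 := congrArg (Int.cast : ℤ → E) ht
      push_cast at h5
      rw [map_mul, map_natCast, map_intCast, h5]
      ring
    rw [← h4, map_sub, map_one]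
  have e2 : (4 : w.adicCompletion E) = algebraMap E (w.adicCompletion E) 4 := (map_ofNat _ 4).symm
  rw [e1, e2, valued_alg, valued_alg, map_mul]
  have h6 : w.valuation E (algebraMap (𝓞 E) E ((Ideal.absNorm w.asIdeal : 𝓞 E) * t)) < 1 := by
    rw [HeightOneSpectrum.valuation_lt_one_iff_mem]
    exact Ideal.mul_mem_right _ _ (Ideal.absNorm_mem _)
  have h7 : 0 < w.valuation E 4 := zero_lt_iff.mpr ((Valuation.ne_zero_iff _).mpr (by norm_num))
  calc _ < w.valuation E 4 * 1 := mul_lt_mul_of_pos_left h6 h7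
    _ = _ := mul_one _

end Vale.Agent.P011Z.Cl.Br2x
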