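import Vale.Agent.P011Z.Cl.Gal1

/-!
Square roots of natural numbers outside of a given number field.
-/

namespace Vale.Agent.P011Z.Cl.Br2x

theorem exists_sqrt (c : Om) : ∃ d : Om, d ^ 2 = c := IsAlgClosed.exists_pow_nat_eq c two_pos

theorem eq_or_neg {σ : Gq} {d : Om} (h : σ (d ^ 2) = d ^ 2) : σ d = d ∨ σ d = -d := by
  rw [map_pow] at h
  exact sq_eq_sq_iff_eq_or_eq_neg.mp h

theorem not_sq_mul {p q : ℕ} (hp : p.Prime) (hq : q.Prime) (hpq : p ≠ q) :
    ¬ IsSquare (p * q) := by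
  rintro ⟨r, hr⟩
  have h1 : Squarefree (p * q) :=
    (Nat.squarefree_mul ((Nat.coprime_primes hp hq).mpr hpq)).mpr ⟨hp.prime.squarefree,
      hq.prime.squarefree⟩
  have h2 : IsUnit r := h1 r (by rw [hr])
  rw [Nat.isUnit_iff.mp h2] at hr
  exact hp.one_lt.ne' (Nat.eq_one_of_mul_eq_one_right hr)

/-- A positive integer in a given class whose square root is not in a given number field. -/
theorem exists_sq {N : Subgroup Gq} (h : Opn N) {m : ℕ} (hm : m ≠ 0) :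
    ∃ (n : ℕ) (e : Om), 0 < n ∧ n ≡ 1 [MOD m] ∧ e ^ 2 = (n : Om) ∧ ∃ σ ∈ N, σ e = -e := by
  by_contra hcon
  push Not at hcon
  have hfi := h.finiteIndex
  choose e he using fun n : ℕ => exists_sqrt (n : Om)
  have hfix : ∀ (σ : Gq) (n : ℕ), σ (e n) = e n ∨ σ (e n) = -e n := fun σ n =>
    eq_or_neg (by rw [he, map_natCast])
  have hinf : {p : ℕ | p.Prime ∧ p ≡ 1 [MOD m]}.Infinite :=
    Nat.infinite_setOfPred_prime_modEq_one hm
  obtain ⟨p, hp, q, hq, hpq, hF⟩ := hinf.exists_ne_map_eq_of_mapsTo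
    (f := fun (p : ℕ) (x : Gq ⧸ N) => x.out (e p) = e p) (t := Set.univ)
    (fun _ _ => Set.mem_univ _) Set.finite_univ
  have hN : ∀ r : ℕ, r.Prime ∧ r ≡ 1 [MOD m] → ∀ σ ∈ N, σ (e r) = e r := fun r hr σ hσ =>
    (hfix σ r).resolve_right (hcon r (e r) hr.1.pos hr.2 (he r) σ hσ)
  have hall : ∀ σ : Gq, σ (e p * e q) = e p * e q := by
    intro σ
    obtain ⟨n, hn⟩ := QuotientGroup.mk_out_eq_mul N σ
    have h1 : ∀ r : ℕ, r.Prime ∧ r ≡ 1 [MOD m] →
        (QuotientGroup.mk σ : Gq ⧸ N).out (e r) = σ (e r) := by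
      intro r hr
      rw [hn, AlgEquiv.mul_apply, hN r hr n n.2]
    have h2 := congrFun hF (QuotientGroup.mk σ)
    simp only [h1 p hp, h1 q hq, eq_iff_iff] at h2
    rw [map_mul]
    by_cases h3 : σ (e p) = e p
    · rw [h3, h2.mp h3]
    · rw [(hfix σ p).resolve_left h3, (hfix σ q).resolve_left fun h4 => h3 (h2.mpr h4),
        neg_mul_neg]
  have hbot : e p * e q ∈ (⊥ : IntermediateField ℚ Om) :=
    (InfiniteGalois.mem_bot_iff_fixed _).mpr hall
  obtain ⟨r, hr⟩ := IntermediateField.mem_bot.mp hbot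
  apply not_sq_mul hp.1 hq.1 hpq
  rw [← Rat.isSquare_natCast_iff]
  refine ⟨r, (algebraMap ℚ Om).injective ?_⟩
  rw [map_mul, hr, map_natCast, Nat.cast_mul, ← he p, ← he q]
  ring

end Vale.Agent.P011Z.Cl.Br2x
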